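import Vale.Agent.P163.Compare

/-!
# P163: exponential decay for every `n ≥ 2` below the BKT point of the plane rotator

The free-boundary two-point function of the O(n) model is at most `n/2` times that of the XY
model, uniformly in the box.
-/

namespace Vale.Agent.Results.P163.MassBelowBKT

open Filter Topology Vale.Agent.P159 Vale.Agent.P163

theorem result : ∃ (C : ℝ → ℕ → ℝ) (m : ℝ → ℝ),
    (∀ b, 0 < b → ∀ r : ℕ,
      Tendsto (fun R => twoPoint R b (0, 0) ((r : ℤ), 0)) atTop (𝓝 (C b r)) ∧ 0 < C b r) ∧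
    (∀ b, 0 < b → Tendsto (fun r : ℕ => -Real.log (C b r) / r) atTop (𝓝 (m b))) ∧
    (∀ b, 0 < b → b < 1 / 16 → 0 < m b) ∧
    (∀ bc, IsGLB {b : ℝ | 0 < b ∧ m b = 0} bc → ∀ b, 0 < b → b < bc → 0 < m b) ∧
    ∀ n : ℕ, 2 ≤ n → ∀ β, 0 < β → ∀ (R : ℕ) (x y : ℤ × ℤ),
      spinCorr n R β x y ≤ (n : ℝ) / 2 * Real.exp
        (-(m β / 2 * Real.sqrt (((x.1 - y.1 : ℤ) : ℝ) ^ 2 + ((x.2 - y.2 : ℤ) : ℝ) ^ 2))) := by
  refine ⟨axisCorr, mass, fun b hb r => ⟨tendsto_twoPoint hb.le _ _, axisCorr_pos hb r⟩,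
    fun b hb => tendsto_mass hb, fun b hb hs => mass_pos_of_small hb hs,
    fun bc hg b hb hlt => ((critical_bound hg).2.2 b hb hlt).1, fun n hn β hβ R x y => ?_⟩
  refine (spinCorr_le hn hβ.le x y).trans (mul_le_mul_of_nonneg_left ?_ (by positivity))
  refine ((twoPoint_le_zero_corrInf R hβ.le x y).trans (corrInf_le_exp hβ le_rfl _)).trans
    (Real.exp_le_exp.2 ?_)
  have h1 : ((x.1 - y.1).natAbs : ℝ) ≤ supDist 0 (y - x) := by
    unfold supDist; exact_mod_cast (by simp [Prod.fst_sub, Prod.snd_sub] :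
      (x.1 - y.1).natAbs ≤ max (((0 : ℤ × ℤ)).1 - (y - x).1).natAbs
        (((0 : ℤ × ℤ)).2 - (y - x).2).natAbs)
  have h2 : ((x.2 - y.2).natAbs : ℝ) ≤ supDist 0 (y - x) := by
    unfold supDist; exact_mod_cast (by simp [Prod.fst_sub, Prod.snd_sub] :
      (x.2 - y.2).natAbs ≤ max (((0 : ℤ × ℤ)).1 - (y - x).1).natAbs
        (((0 : ℤ × ℤ)).2 - (y - x).2).natAbs)
  have h3 : Real.sqrt (((x.1 - y.1 : ℤ) : ℝ) ^ 2 + ((x.2 - y.2 : ℤ) : ℝ) ^ 2)
      ≤ 2 * supDist 0 (y - x) := by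
    rw [Real.sqrt_le_left (by linarith [(Nat.cast_nonneg _ : (0 : ℝ) ≤ ((x.1 - y.1).natAbs : ℝ))])]
    rw [Nat.cast_natAbs, Int.cast_abs] at h1 h2
    have e1 := pow_le_pow_left₀ (abs_nonneg _) h1 2
    have e2 := pow_le_pow_left₀ (abs_nonneg _) h2 2
    rw [sq_abs] at e1 e2
    nlinarith [sq_nonneg (supDist 0 (y - x))]
  nlinarith [mul_le_mul_of_nonneg_left h3 (show 0 ≤ mass β / 2 by linarith [mass_nonneg hβ])]

end Vale.Agent.Results.P163.MassBelowBKT
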